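import Crest.Agent.N207.Sk.Defs

/-!
# Row 207 (helper38): lifting through a finite free orthogonal group over a shell of `ℝ⁴`
-/

set_option autoImplicit false
set_option linter.style.haveILetI false

open scoped ContDiff Topology InnerProductSpace
open Set Filter Metric

noncomputable section

namespace Crest.Agent.N207.TR

open Sk

variable {Γ : Subgroup (E4 ≃ₗᵢ[ℝ] E4)}

theorem isOpen_shell (a b : ℝ) : IsOpen (shell a b) :=
  (isOpen_lt continuous_const continuous_norm).inter (isOpen_lt continuous_norm continuous_const)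

theorem shell_mono {a b a' b' : ℝ} (ha : a' ≤ a) (hb : b ≤ b') : shell a b ⊆ shell a' b' :=
  fun _ hx => ⟨ha.trans_lt hx.1, hx.2.trans_le hb⟩

theorem shell_ne {a b : ℝ} (ha : 0 ≤ a) {x : E4} (hx : x ∈ shell a b) : x ≠ 0 :=
  norm_pos_iff.1 (ha.trans_lt hx.1)

theorem shell_iso {a b : ℝ} (γ : E4 ≃ₗᵢ[ℝ] E4) {x : E4} (hx : x ∈ shell a b) : γ x ∈ shell a b := by
  simpa [shell] using hx

theorem rank_E4 : 1 < Module.rank ℝ E4 := by
  rw [← Module.finrank_eq_rank, finrank_euclideanSpace_fin]; norm_num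

theorem shell_nonempty {a b : ℝ} (ha : 0 ≤ a) (hab : a < b) : (shell a b).Nonempty := by
  refine ⟨EuclideanSpace.single 0 ((a + b) / 2), ?_⟩
  have : ‖(EuclideanSpace.single 0 ((a + b) / 2) : E4)‖ = (a + b) / 2 := by
    rw [PiLp.norm_single, Real.norm_of_nonneg (by linarith)]
  constructor <;> rw [this] <;> linarith

theorem shell_preconn {a b : ℝ} (ha : 0 ≤ a) : IsPreconnected (shell a b) := by
  have h := (isPreconnected_Ioo (a := a) (b := b)).prod (isPreconnected_sphere rank_E4 (0 : E4) 1)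
  have h2 := h.image (fun p : ℝ × E4 => p.1 • p.2) (by fun_prop)
  convert h2 using 1
  ext x
  constructor
  · intro hx
    have hn : 0 < ‖x‖ := ha.trans_lt hx.1
    exact ⟨(‖x‖, ‖x‖⁻¹ • x), ⟨hx, by simp [norm_smul, hn.ne']⟩, by simp [smul_smul, hn.ne']⟩
  · rintro ⟨p, ⟨h1, h3⟩, rfl⟩
    have e : ‖p.1 • p.2‖ = p.1 := by
      rw [norm_smul, mem_sphere_zero_iff_norm.1 h3, mul_one, Real.norm_of_nonneg (ha.trans h1.1.le)]
    show a < _ ∧ _ < b
    rw [e]; exact h1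

theorem eq_of_apply (hΓ : Grp Γ) {γ γ' : E4 ≃ₗᵢ[ℝ] E4} (h : γ ∈ Γ) (h' : γ' ∈ Γ) {x : E4}
    (hx : x ≠ 0) (e : γ x = γ' x) : γ = γ' := by
  have := hΓ.free (γ'⁻¹ * γ) (Γ.mul_mem (Γ.inv_mem h') h) x hx (by
    show γ'.symm (γ x) = x
    rw [e, γ'.symm_apply_apply])
  rw [inv_mul_eq_one] at this
  exact this.symm

/-- on a preconnected set two continuous lifts differ by one element of the group -/
theorem one_elt {α : Type*} [TopologicalSpace α] (hΓ : Grp Γ) {S : Set α} (hS : IsPreconnected S)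
    {f g : α → E4} (hf : ContinuousOn f S) (hg : ContinuousOn g S) (h0 : ∀ x ∈ S, g x ≠ 0)
    (h : ∀ x ∈ S, ∃ γ ∈ Γ, γ (g x) = f x) : ∃ γ ∈ Γ, ∀ x ∈ S, γ (g x) = f x := by
  rcases S.eq_empty_or_nonempty with rfl | ⟨x₀, hx₀⟩
  · exact ⟨1, Γ.one_mem, fun x hx => hx.elim⟩
  obtain ⟨γ₀, hγ₀, e₀⟩ := h x₀ hx₀
  haveI := hΓ.fin
  haveI : PreconnectedSpace S := Subtype.preconnectedSpace hS
  have hc : ∀ γ : E4 ≃ₗᵢ[ℝ] E4, IsClosed {x : S | γ (g x) = f x} := fun γ =>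
    isClosed_eq (γ.continuous.comp hg.domRestrict) hf.domRestrict
  have ho : IsOpen {x : S | γ₀ (g x) = f x} := by
    rw [← isClosed_compl_iff]
    have : {x : S | γ₀ (g x) = f x}ᶜ = ⋃ γ : {γ : Γ // γ.1 ≠ γ₀}, {x : S | γ.1.1 (g x) = f x} := by
      ext x
      simp only [mem_compl_iff, mem_ofPred_eq, mem_iUnion]
      constructor
      · intro hx
        obtain ⟨γ, hγ, e⟩ := h x x.2
        exact ⟨⟨⟨γ, hγ⟩, fun h1 => hx (by rw [← e]; exact congrArg (fun u => u (g x)) h1.symm)⟩, e⟩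
      · rintro ⟨γ, e⟩ e'
        exact γ.2 (eq_of_apply hΓ γ.1.2 hγ₀ (h0 x x.2) (e.trans e'.symm))
    rw [this]
    exact isClosed_iUnion_of_finite fun γ => hc _
  have hu := IsClopen.eq_univ ⟨hc γ₀, ho⟩ ⟨⟨x₀, hx₀⟩, e₀⟩
  refine ⟨γ₀, hγ₀, fun x hx => ?_⟩
  have : (⟨x, hx⟩ : S) ∈ {x : S | γ₀ (g x) = f x} := hu ▸ mem_univ _
  exact this

/-- lifting over a convex set -/
theorem lift_convex {Y : Type*} [NormedAddCommGroup Y] [NormedSpace ℝ Y] (hΓ : Grp Γ) {D : Set Y}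
    (hD : Convex ℝ D) (hne : D.Nonempty) {y : Y → E4} (h0 : ∀ x ∈ D, y x ≠ 0)
    (hl : ∀ x ∈ D, ∃ T : Y → E4, ContinuousWithinAt T D x ∧
      ∀ᶠ z in 𝓝[D] x, ∃ γ ∈ Γ, γ (T z) = y z) :
    ∃ F : Y → E4, ContinuousOn F D ∧ ∀ x ∈ D, ∃ γ ∈ Γ, γ (F x) = y x := by
  classical
  haveI := hΓ.fin
  letI : MulAction Γ E4 :=
    { smul := fun γ x => γ.1 x, one_smul := fun _ => rfl, mul_smul := fun _ _ _ => rfl }
  haveI : ContinuousConstSMul Γ E4 := ⟨fun γ => γ.1.continuous⟩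
  haveI : ProperlyDiscontinuousSMul Γ E4 := ⟨fun _ _ => Set.toFinite _⟩
  have cov := isCoveringMapOn_quotientMk_of_properlyDiscontinuousSMul (G := Γ) (E := E4)
  haveI := hD.contractibleSpace hne
  haveI := hD.locallyPathConnectedSpace
  set π : E4 → Quotient (MulAction.orbitRel Γ E4) := Quotient.mk _ with hπ
  have hπc : Continuous π := continuous_quotient_mk'
  have hπe : ∀ u v : E4, π u = π v ↔ ∃ γ ∈ Γ, γ v = u := fun u v => by
    rw [hπ, Quotient.eq'', MulAction.orbitRel_apply]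
    exact ⟨fun ⟨γ, e⟩ => ⟨γ.1, γ.2, e⟩, fun ⟨γ, h, e⟩ => ⟨⟨γ, h⟩, e⟩⟩
  have hc : ContinuousOn (fun x => π (y x)) D := fun x hx => by
    obtain ⟨T, hT, hz⟩ := hl x hx
    refine (hπc.continuousAt.comp_continuousWithinAt hT).congr_of_eventuallyEq
      (hz.mono fun z h => (hπe _ _).2 h) ((hπe _ _).2 (hz.self_of_nhdsWithin hx))
  obtain ⟨x₀, hx₀⟩ := hne
  obtain ⟨F, ⟨-, hF⟩, -⟩ := cov.existsUnique_continuousMap_lifts (A := D) ⟨_, hc.domRestrict⟩
    (a₀ := ⟨x₀, hx₀⟩) (e₀ := y x₀) rfl fun a => ⟨y a, by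
      refine (Subgroup.eq_bot_iff_forall _).2 fun γ hγ => Subtype.ext ?_
      exact hΓ.free γ.1 γ.2 _ (h0 a a.2) hγ, rfl⟩
  refine ⟨fun x => if h : x ∈ D then F ⟨x, h⟩ else 0, ?_, fun x hx => ?_⟩
  · rw [continuousOn_iff_continuous_domRestrict]
    convert F.continuous using 1
    ext x : 1
    simp
  · simp only [dif_pos hx]
    exact (hπe _ _).1 (congrFun hF ⟨x, hx⟩).symm

/-- the shell minus a ray -/
def cut (a b : ℝ) (v : E4) : Set E4 := shell a b ∩ {x | ‖x‖⁻¹ • x ≠ v}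

/-- polar-stereographic parametrisation -/
def par {v : E4} (hv : ‖v‖ = 1) (p : ℝ × (ℝ ∙ v)ᗮ) : E4 := p.1 • (stereoInvFun hv p.2 : E4)

/-- its inverse -/
def sec (v : E4) (x : E4) : ℝ × (ℝ ∙ v)ᗮ := (‖x‖, stereoToFun v (‖x‖⁻¹ • x))

variable {a b : ℝ} {v : E4}

theorem par_cont (hv : ‖v‖ = 1) : Continuous (par hv) :=
  continuous_fst.smul (continuous_subtype_val.comp ((continuous_stereoInvFun hv).comp continuous_snd))

theorem norm_par (hv : ‖v‖ = 1) {p : ℝ × (ℝ ∙ v)ᗮ} (hp : 0 ≤ p.1) : ‖par hv p‖ = p.1 := by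
  rw [par, norm_smul, norm_eq_of_mem_sphere, mul_one, Real.norm_of_nonneg hp]

theorem dir_par (hv : ‖v‖ = 1) {p : ℝ × (ℝ ∙ v)ᗮ} (hp : 0 < p.1) :
    ‖par hv p‖⁻¹ • par hv p = stereoInvFun hv p.2 := by
  rw [norm_par hv hp.le, par, smul_smul, inv_mul_cancel₀ hp.ne', one_smul]

theorem norm_dir {x : E4} (hx : x ≠ 0) : ‖‖x‖⁻¹ • x‖ = 1 := by
  rw [norm_smul, norm_inv, norm_norm, inv_mul_cancel₀ (norm_ne_zero_iff.2 hx)]

theorem par_sec (hv : ‖v‖ = 1) (ha : 0 ≤ a) {x : E4} (hx : x ∈ cut a b v) :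
    par hv (sec v x) = x := by
  have h0 := shell_ne ha hx.1
  have := stereo_left_inv hv (x := ⟨‖x‖⁻¹ • x, mem_sphere_zero_iff_norm.2 (norm_dir h0)⟩) hx.2
  have e := congrArg Subtype.val this
  simp only [par, sec]
  simp only at e
  rw [e, smul_smul, mul_inv_cancel₀ (norm_ne_zero_iff.2 h0), one_smul]

theorem dir_cont (ha : 0 ≤ a) : ContinuousOn (fun x : E4 => ‖x‖⁻¹ • x) (shell a b) :=
  (continuous_norm.continuousOn.inv₀ fun _ hx => (ha.trans_lt hx.1).ne').smul continuousOn_id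

theorem sec_cont (hv : ‖v‖ = 1) (ha : 0 ≤ a) : ContinuousOn (sec v) (cut a b v) := by
  refine continuous_norm.continuousOn.prodMk (continuousOn_stereoToFun.comp
    ((dir_cont ha).mono inter_subset_left) fun x hx h => hx.2 ?_)
  exact ((inner_eq_one_iff_of_norm_eq_one (𝕜 := ℝ) hv (norm_dir (shell_ne ha hx.1))).1 h).symm

theorem isOpen_cut (ha : 0 ≤ a) : IsOpen (cut a b v) :=
  (dir_cont ha).isOpen_inter_preimage (isOpen_shell a b) (isOpen_compl_singleton (x := v))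

theorem par_mem (hv : ‖v‖ = 1) (ha : 0 ≤ a) {p : ℝ × (ℝ ∙ v)ᗮ} (hp : p.1 ∈ Ioo a b) :
    par hv p ∈ cut a b v := by
  have h0 : 0 < p.1 := ha.trans_lt hp.1
  refine ⟨?_, ?_⟩
  · show a < _ ∧ _ < b
    rw [norm_par hv h0.le]; exact hp
  · show _ ≠ v
    rw [dir_par hv h0]
    exact fun h => stereoInvFun_ne_north_pole hv p.2 (Subtype.ext h)

theorem cut_preconn (hv : ‖v‖ = 1) (ha : 0 ≤ a) : IsPreconnected (cut a b v ∩ cut a b (-v)) := by
  have hv0 : v ≠ 0 := by rintro rfl; simp at hv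
  haveI : Fact (Module.finrank ℝ E4 = 3 + 1) := ⟨finrank_euclideanSpace_fin⟩
  have hr : 1 < Module.rank ℝ (ℝ ∙ v)ᗮ := by
    rw [← Module.finrank_eq_rank, Submodule.finrank_orthogonal_span_singleton (n := 3) hv0]
    norm_num
  have h := (isPreconnected_Ioo (a := a) (b := b)).prod
    (isConnected_compl_singleton_of_one_lt_rank hr 0).isPreconnected
  have h2 := h.image (par hv) (par_cont hv).continuousOn
  have hz : stereoToFun v (-v) = 0 := by simp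
  convert h2 using 1
  ext x
  constructor
  · intro hx
    refine ⟨sec v x, ⟨hx.1.1, fun h => hx.2.2 ?_⟩, par_sec hv ha hx.1⟩
    have h1 : (sec v x).2 = 0 := h
    have h3 := dir_par hv (p := sec v x) (ha.trans_lt hx.1.1.1)
    rw [par_sec hv ha hx.1, h1] at h3
    rw [h3]
    simp [smul_smul]
  · rintro ⟨p, ⟨h1, h3⟩, rfl⟩
    refine ⟨par_mem hv ha h1, (par_mem hv ha h1).1, fun h => h3 ?_⟩
    rw [dir_par hv (ha.trans_lt h1.1)] at h
    have := stereo_right_inv hv p.2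
    rw [h, hz] at this
    exact this.symm

theorem lift_cut (hΓ : Grp Γ) (hv : ‖v‖ = 1) (ha : 0 ≤ a) (hab : a < b) {y : E4 → E4}
    (h0 : ∀ x ∈ shell a b, y x ≠ 0)
    (hl : ∀ x ∈ shell a b, ∃ T : E4 → E4, ContinuousAt T x ∧ ∀ᶠ z in 𝓝 x, ∃ γ ∈ Γ, γ (T z) = y z) :
    ∃ F : E4 → E4, ContinuousOn F (cut a b v) ∧ ∀ x ∈ cut a b v, ∃ γ ∈ Γ, γ (F x) = y x := by
  obtain ⟨F, hF, hFy⟩ := lift_convex (Y := ℝ × (ℝ ∙ v)ᗮ) hΓ (D := Ioo a b ×ˢ univ)
    ((convex_Ioo a b).prod convex_univ) ((nonempty_Ioo.2 hab).prod univ_nonempty)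
    (y := fun p => y (par hv p)) (fun p hp => h0 _ (par_mem hv ha hp.1).1) fun p hp => by
      obtain ⟨T, hT, hz⟩ := hl _ (par_mem hv ha hp.1).1
      exact ⟨fun p => T (par hv p), (hT.comp (par_cont hv).continuousAt).continuousWithinAt,
        ((par_cont hv).continuousAt.eventually hz).filter_mono nhdsWithin_le_nhds⟩
  refine ⟨fun x => F (sec v x), hF.comp (sec_cont hv ha) fun x hx => ⟨hx.1, trivial⟩,
    fun x hx => ?_⟩
  have := hFy (sec v x) ⟨hx.1, trivial⟩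
  rwa [par_sec hv ha hx] at this

/-- **lifting over a shell** -/
theorem lift_shell (hΓ : Grp Γ) (ha : 0 ≤ a) (hab : a < b) {y : E4 → E4}
    (h0 : ∀ x ∈ shell a b, y x ≠ 0)
    (hl : ∀ x ∈ shell a b, ∃ T : E4 → E4, ContinuousAt T x ∧ ∀ᶠ z in 𝓝 x, ∃ γ ∈ Γ, γ (T z) = y z) :
    ∃ F : E4 → E4, ContinuousOn F (shell a b) ∧ ∀ x ∈ shell a b, ∃ γ ∈ Γ, γ (F x) = y x := by
  classical
  set v : E4 := EuclideanSpace.single 0 1
  have hv : ‖v‖ = 1 := by simp [v]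
  obtain ⟨F, hF, hFy⟩ := lift_cut hΓ hv ha hab h0 hl
  obtain ⟨G, hG, hGy⟩ := lift_cut hΓ (v := -v) (by simpa using hv) ha hab h0 hl
  obtain ⟨γ, hγ, e⟩ := one_elt hΓ (cut_preconn (b := b) hv ha) (hF.mono inter_subset_left)
    (hG.mono inter_subset_right) (fun x hx h => by
      obtain ⟨γ, -, e⟩ := hGy x hx.2
      rw [h, map_zero] at e
      exact h0 x hx.1.1 e.symm) fun x hx => by
      obtain ⟨γ, hγ, e⟩ := hGy x hx.2
      obtain ⟨γ', hγ', e'⟩ := hFy x hx.1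
      refine ⟨γ'⁻¹ * γ, Γ.mul_mem (Γ.inv_mem hγ') hγ, ?_⟩
      show γ'.symm (γ (G x)) = F x
      rw [e, ← e', γ'.symm_apply_apply]
  have hcov : ∀ x ∈ shell a b, x ∉ cut a b v → x ∈ cut a b (-v) := fun x hx h => by
    refine ⟨hx, fun h' => ?_⟩
    have h1 : ‖x‖⁻¹ • x = v := by by_contra h2; exact h ⟨hx, h2⟩
    have h2 : v = -v := h1.symm.trans h'
    have h3 : (2 : ℝ) • v = 0 := by rw [two_smul]; nth_rewrite 2 [h2]; simp
    have h4 : v = 0 := by simpa using h3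
    rw [h4] at hv; simp at hv
  refine ⟨fun x => if x ∈ cut a b v then F x else γ (G x), fun x hx => ?_, fun x hx => ?_⟩
  · refine ContinuousAt.continuousWithinAt ?_
    by_cases h : x ∈ cut a b v
    · refine (hF.continuousAt ((isOpen_cut ha).mem_nhds h)).congr ?_
      filter_upwards [(isOpen_cut ha).mem_nhds h] with z hz
      rw [if_pos hz]
    · have h' := hcov x hx h
      refine (γ.continuous.continuousAt.comp
        (hG.continuousAt ((isOpen_cut ha).mem_nhds h'))).congr ?_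
      filter_upwards [(isOpen_cut ha).mem_nhds h'] with z hz
      by_cases hz' : z ∈ cut a b v
      · rw [if_pos hz']; exact e z ⟨hz', hz⟩
      · rw [if_neg hz']; rfl
  · by_cases h : x ∈ cut a b v
    · simp only [if_pos h]; exact hFy x h
    · simp only [if_neg h]
      obtain ⟨γ', hγ', e'⟩ := hGy x (hcov x hx h)
      refine ⟨γ' * γ⁻¹, Γ.mul_mem hγ' (Γ.inv_mem hγ), ?_⟩
      show γ' (γ.symm (γ (G x))) = y x
      rw [γ.symm_apply_apply, e']

end Crest.Agent.N207.TR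

end
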