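import Crest.Agent.N207.TR.Top
import Crest.Agent.N207.TR.Core
import Crest.Agent.N207.TR.Rig

/-!
# Row 207 (helper38): `Sk.TRANS`
-/

set_option autoImplicit false
set_option linter.style.haveILetI false
set_option linter.unusedSectionVars false

open scoped ContDiff Manifold Topology
open Set Filter Metric
open Crest.GeometryTopology.CoordMetric
open Crest.Agent.R202.Tens

noncomputable section

namespace Crest.Agent.N207.TR

open Sk I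

theorem jg_scale {G : MetricField 4} {x : E4} {r δ : ℝ} {m : ℕ} (hr : 0 < r) (hδ : 0 ≤ δ)
    (hx : r ≤ 8 * ‖x‖) (h : JG m G x ‖x‖ δ) {k : ℕ} (hk : k ≤ m) (a b : Fin 4) {z : E4}
    (hz : r • z = x) : ‖iteratedFDeriv ℝ k (dv (fun y => G (r • y)) a b) z‖ ≤ 8 ^ m * δ := by
  have h1 := norm_iter_smul (dv G a b) hr k z
  rw [hz] at h1
  have h2 : ‖iteratedFDeriv ℝ k (dv G a b) x‖ * ‖x‖ ^ k ≤ δ := h k hk a b
  calc _ ≤ r ^ k * ‖iteratedFDeriv ℝ k (dv G a b) x‖ := h1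
    _ ≤ (8 * ‖x‖) ^ k * ‖iteratedFDeriv ℝ k (dv G a b) x‖ := by gcongr
    _ = 8 ^ k * (‖iteratedFDeriv ℝ k (dv G a b) x‖ * ‖x‖ ^ k) := by rw [mul_pow]; ring
    _ ≤ 8 ^ m * δ := by gcongr; norm_num

theorem jg_zero {G : MetricField 4} {x : E4} {s δ : ℝ} {m : ℕ} (h : JG m G x s δ) (a b : Fin 4) :
    |dv G a b x| ≤ δ := by
  simpa [J1, norm_iteratedFDeriv_zero] using h 0 (Nat.zero_le _) a b

theorem jg_mono {G : MetricField 4} {x : E4} {s δ : ℝ} {m m' : ℕ} (h : JG m G x s δ)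
    (hm : m' ≤ m) : JG m' G x s δ := fun k hk => h k (hk.trans hm)

/-- the rescaled map -/
def rs (r : ℝ) (Θ : E4 → E4) (z : E4) : E4 := r⁻¹ • Θ (r • z)

theorem core' (m : ℕ) : ∃ C : ℝ, 0 < C ∧ ∀ (G G' : MetricField 4) (Θ : E4 → E4) (V W : Set E4)
    (r δ : ℝ) (z : E4), Pull G G' Θ V W → 0 < r → r • z ∈ V → 0 ≤ δ → δ ≤ 1 / 100 →
    r ≤ 8 * ‖r • z‖ → r ≤ 8 * ‖Θ (r • z)‖ → ‖Θ (r • z)‖ ≤ 8 * r →
    JG (m + 1) G (r • z) ‖r • z‖ δ → JG (m + 1) G' (Θ (r • z)) ‖Θ (r • z)‖ δ →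
    ∀ k ≤ m, ‖iteratedFDeriv ℝ (k + 2) (rs r Θ) z‖ ≤ C * δ := by
  obtain ⟨C, hC, h⟩ := core m (8 ^ (m + 1))
  refine ⟨C, hC, fun G G' Θ V W r δ z hP hr hz h0 h1 a1 a2 a3 j1 j2 => ?_⟩
  have e : r • rs r Θ z = Θ (r • z) := smul_inv_smul₀ hr.ne' _
  refine h ⟨_, _, rs r Θ, _, _, z, δ, pull_scale hP hr, hz, h0, by linarith, ?_,
    fun a b => (jg_zero j1 a b).trans h1, fun a b => ?_,
    fun k hk a b => jg_scale hr h0 a1 j1 hk a b rfl, fun k hk a b => jg_scale hr h0 a2 j2 hk a b e⟩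
  · have : ‖rs r Θ z‖ ≤ 8 := by
      rw [rs, norm_smul, norm_inv, Real.norm_of_nonneg hr.le, inv_mul_le_iff₀ hr]; linarith
    exact this.trans (le_self_pow₀ (by norm_num) (Nat.succ_ne_zero m))
  · have := (jg_zero j2 a b).trans h1
    rwa [← e] at this

theorem j1_unscale {F : E4 → E4} {r c : ℝ} (hr : 0 < r) {k : ℕ} {x : E4}
    (hs : ContDiffAt ℝ ∞ F (r⁻¹ • x)) (h : ‖iteratedFDeriv ℝ k F (r⁻¹ • x)‖ ≤ c) :
    J1 k (fun y => r • F (r⁻¹ • y)) x r (c * r) := by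
  have h1 := norm_iter_smul F (inv_pos.2 hr) k x
  have h2 : ContDiffAt ℝ k (fun y => F (r⁻¹ • y)) x :=
    (hs.of_le (Jt.kle k)).comp x (by fun_prop)
  have h3 := iteratedFDeriv_const_smul_apply' (a := r) h2
  unfold J1
  rw [h3, norm_smul, Real.norm_of_nonneg hr.le]
  calc _ ≤ r * (r⁻¹ ^ k * c) * r ^ k := by gcongr; exact h1.trans (by gcongr)
    _ = c * r := by rw [inv_pow]; field_simp

theorem iter_sub_lin {F : E4 → E4} {z : E4} (hs : ∀ᶠ y in 𝓝 z, DifferentiableAt ℝ F y)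
    (A : E4 →L[ℝ] E4) (k : ℕ) :
    ‖iteratedFDeriv ℝ (k + 2) (fun y => F y - A y) z‖ = ‖iteratedFDeriv ℝ (k + 2) F z‖ := by
  have e1 : fderiv ℝ (fun y => F y - A y) =ᶠ[𝓝 z] fun y => fderiv ℝ F y - A :=
    hs.mono fun y hy => (hy.hasFDerivAt.fun_sub A.hasFDerivAt).fderiv
  have e2 : fderiv ℝ (fun y => fderiv ℝ F y - A) = fderiv ℝ (fderiv ℝ F) :=
    funext fun y => fderiv_sub_const _
  have e3 := e1.fderiv (𝕜 := ℝ)
  rw [e2] at e3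
  simp only [← norm_iteratedFDeriv_fderiv]
  rw [(e3.iteratedFDeriv ℝ k).eq_of_nhds]

theorem pull_rs {G G' : MetricField 4} {Θ : E4 → E4} {V W : Set E4} (h : Pull G G' Θ V W)
    {s : ℝ} (hs : 0 < s) : Pull (fun z => G (s • z)) (fun z => G' (s • z))
      (rs s Θ) ((fun z => s • z) ⁻¹' V) ((fun z => s • z) ⁻¹' W) := pull_scale h hs

theorem smul_shell {r : ℝ} (hr : 0 < r) {z : E4} (hz : z ∈ shell (1 / 4) 4) :
    r • z ∈ shell (r / 4) (4 * r) := by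
  show _ < _ ∧ _ < _
  rw [norm_smul, Real.norm_of_nonneg hr.le]
  constructor <;> nlinarith [hz.1, hz.2]

theorem inv_smul_shell {r : ℝ} (hr : 0 < r) {x : E4} (hx : x ∈ shell (r / 2) (2 * r)) :
    r⁻¹ • x ∈ shell (1 / 2) 2 := by
  show _ < _ ∧ _ < _
  rw [norm_smul, norm_inv, Real.norm_of_nonneg hr.le, lt_inv_mul_iff₀ hr, inv_mul_lt_iff₀ hr]
  constructor <;> linarith [hx.1, hx.2]

/-- the analytic part -/
theorem euc : ∃ η0 : ℝ, 0 < η0 ∧ ∀ m : ℕ, ∃ C : ℝ, 0 < C ∧ ∀ (H : Type) [Group H] [Finite H]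
    (ρ σ : H →* (E4 ≃ₗᵢ[ℝ] E4)) (G G' : MetricField 4) (Θ : E4 → E4) (V W : Set E4) (r δ : ℝ),
    (∃ h, ∀ v, ρ h v = v → v = 0) → Pull G G' Θ V W → 0 < r → shell (r / 4) (4 * r) ⊆ V →
    (∀ x ∈ shell (r / 4) (4 * r), Θ x ∈ shell (r / 8) (8 * r)) →
    (∀ h, ∀ x ∈ shell (r / 4) (4 * r), Θ (σ h x) = ρ h (Θ x)) → 0 ≤ δ → δ ≤ η0 →
    (∀ x ∈ shell (r / 4) (4 * r), JG (m + 1) G x ‖x‖ δ) →
    (∀ x ∈ shell (r / 8) (8 * r), JG (m + 1) G' x ‖x‖ δ) →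
    ∃ A : E4 ≃ₗᵢ[ℝ] E4, (∀ h x, A (σ h x) = ρ h (A x)) ∧
      ∀ x ∈ shell (r / 2) (2 * r), ∀ k ≤ m + 2, J1 k (fun y => Θ y - A y) x r (C * δ * r) := by
  obtain ⟨C0, hC0, h0⟩ := core' 0
  refine ⟨1 / (200 * (C0 + 80)), by positivity, fun m => ?_⟩
  obtain ⟨C, hC, h⟩ := core' m
  refine ⟨456 * (C0 + 80) + C, by positivity,
    fun H _ _ ρ σ G G' Θ V W r δ hρ hP hr s1 m2 he hδ hδ' j1 j2 => ?_⟩
  have hc : (C0 + 80) * δ ≤ 1 / 200 := by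
    rw [le_div_iff₀ (by positivity)] at hδ'
    linarith
  have p1 : 0 ≤ C * δ := by positivity
  have p2 : 0 ≤ (C0 + 80) * δ := by positivity
  have p3 : C0 * δ ≤ (C0 + 80) * δ := by gcongr; linarith
  have p4 : 80 * δ ≤ (C0 + 80) * δ := by gcongr; linarith
  have p5 : (456 * (C0 + 80) + C) * δ = 456 * ((C0 + 80) * δ) + C * δ := by ring
  have hδ1 : δ ≤ 1 / 100 := by linarith only [p4, hc, hδ]
  have hPr := pull_rs hP hr
  have m1 : ∀ z ∈ shell (1 / 4) 4, r • z ∈ shell (r / 4) (4 * r) := fun z hz => smul_shell hr hz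
  have e : ∀ z, r • rs r Θ z = Θ (r • z) := fun z => smul_inv_smul₀ hr.ne' _
  have sm : ContDiffOn ℝ ∞ (rs r Θ) (shell (1 / 4) 4) := hPr.smooth.mono fun z hz => s1 (m1 z hz)
  have sm' : ∀ z ∈ shell (1 / 4) 4, ContDiffAt ℝ ∞ (rs r Θ) z := fun z hz =>
    sm.contDiffAt ((isOpen_shell _ _).mem_nhds hz)
  have q1 : ∀ γ, ∀ z ∈ shell (1 / 4) 4, rs r Θ (σ γ z) = ρ γ (rs r Θ z) := fun γ z hz => by
    rw [rs, rs, ← map_smul, he γ _ (m1 z hz), map_smul]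
  have q2 : ∀ z ∈ shell (1 / 4) 4, ‖fderiv ℝ (fderiv ℝ (rs r Θ)) z‖ ≤ (C0 + 80) * δ :=
    fun z hz => by
      have := h0 _ _ Θ _ _ r δ z hP hr (s1 (m1 z hz)) hδ hδ1 (by linarith only [(m1 z hz).1, hr])
        (by linarith only [(m2 _ (m1 z hz)).1]) (m2 _ (m1 z hz)).2.le
        (jg_mono (j1 _ (m1 z hz)) (by omega)) (jg_mono (j2 _ (m2 _ (m1 z hz))) (by omega)) 0 le_rfl
      rw [← norm_iteratedFDeriv_fderiv, ← norm_iteratedFDeriv_fderiv,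
        norm_iteratedFDeriv_zero] at this
      exact this.trans p3
  have q3 : ∀ z ∈ shell (1 / 4) 4, ‖star (fderiv ℝ (rs r Θ) z) * fderiv ℝ (rs r Θ) z - 1‖ ≤
      (C0 + 80) * δ ∧ ‖fderiv ℝ (rs r Θ) z‖ ≤ 2 := fun z hz => by
    have a1 : ∀ a b, |dv (fun y => G (r • y)) a b z| ≤ δ := fun a b =>
      jg_zero (G := G) (j1 _ (m1 z hz)) a b
    have a2 : ∀ a b, |dv (fun y => G' (r • y)) a b (rs r Θ z)| ≤ δ := fun a b => by
      have := jg_zero (j2 _ (m2 _ (m1 z hz))) a b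
      rwa [← e] at this
    exact ⟨(star_D hPr (s1 (m1 z hz)) hδ1 a1 a2).trans p4,
      norm_D_le hPr (s1 (m1 z hz)) (fun a b => (a1 a b).trans hδ1) fun a b => (a2 a b).trans hδ1⟩
  obtain ⟨A, hA, hA'⟩ := rigid ρ σ hρ hc sm q1 q2 q3
  refine ⟨A, hA, fun x hx k hk => ?_⟩
  have hz := inv_smul_shell hr hx
  have hz' : r⁻¹ • x ∈ shell (1 / 4) 4 := shell_mono (by norm_num) (by norm_num) hz
  have e2 : (fun y => Θ y - A y) = fun y => r • (fun z => rs r Θ z - cl A z) (r⁻¹ • y) := by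
    funext y
    simp only [smul_sub, e, map_smul, smul_inv_smul₀ hr.ne']
    rfl
  rw [e2]
  refine j1_unscale (F := fun z => rs r Θ z - cl A z) hr
    ((sm' _ hz').sub (cl A).contDiff.contDiffAt) ?_
  rcases k with _ | _ | k
  · rw [norm_iteratedFDeriv_zero]
    exact (hA' _ hz).1.trans (by linarith only [p1, p2, p5])
  · rw [← norm_iteratedFDeriv_fderiv, norm_iteratedFDeriv_zero,
      (((sm' _ hz').differentiableAt (by simp)).hasFDerivAt.fun_sub (cl A).hasFDerivAt).fderiv]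
    exact (hA' _ hz).2.trans (by linarith only [p1, p2, p5])
  · rw [iter_sub_lin (mem_of_superset ((isOpen_shell _ _).mem_nhds hz') fun y hy =>
      (sm' y hy).differentiableAt (by simp))]
    have := h _ _ Θ _ _ r δ _ hP hr (s1 (m1 _ hz')) hδ hδ1 (by linarith only [(m1 _ hz').1, hr])
      (by linarith only [(m2 _ (m1 _ hz')).1]) (m2 _ (m1 _ hz')).2.le
      (j1 _ (m1 _ hz')) (j2 _ (m2 _ (m1 _ hz'))) k (by omega)
    exact this.trans (by linarith only [p1, p2, p5])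

/-- **GEO 3** -/
theorem trans (M : Type*) [TopologicalSpace M] [ChartedSpace E4 M] [IsManifold 𝓘(ℝ, E4) ∞ M]
    [T3Space M] [ConnectedSpace M] [MeasurableSpace M] [BorelSpace M] : TRANS M := by
  obtain ⟨η0, hη, h⟩ := euc
  refine ⟨η0, hη, fun m => ?_⟩
  obtain ⟨C, hC, h⟩ := h m
  refine ⟨C, hC, fun g N N' V r1 r2 t t' _ _ a a' b b' r c => ?_⟩
  have hT : Two N N' r1 r2 := ⟨t, t', a, a', b, b', r, c⟩
  obtain ⟨Θ, ι, hΘ, hι⟩ := hT.iso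
  refine ⟨Θ, ι, hΘ.sm, fun x hx => ⟨hΘ.mem x hx, hΘ.eq x hx, fun γ => hι γ x hx⟩,
    fun r δ hr1 hr2 hδ hδ' j1 j2 => ?_⟩
  have hp := hT.pos
  have s1 : shell (r / 4) (4 * r) ⊆ shell r1 (r2 / 2) := shell_mono (by linarith) (by linarith)
  haveI := t.grp.fin
  refine h N.Γ (N'.Γ.subtype.comp ι.toMonoidHom) N.Γ.subtype _ _ Θ _ _ r δ ?_
    (Gs.pull_of' g t.par t'.par (isOpen_shell _ _) hT.sub hΘ.sm
      fun z hz => ⟨hΘ.mem z hz, hΘ.eq z hz⟩) (by linarith) s1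
    (fun x hx => ⟨by linarith [hΘ.lo x (s1 hx), hx.1], by linarith [hΘ.hi x (s1 hx), hx.2]⟩)
    (fun γ x hx => hι γ x (s1 hx)) hδ hδ' j1 j2
  obtain ⟨γ, hγ⟩ := (Subgroup.ne_bot_iff_exists_ne_one).1 t'.grp.ne
  refine ⟨ι.symm γ, fun v hv => by_contra fun h0 => hγ (Subtype.ext ?_)⟩
  exact t'.grp.free γ.1 γ.2 v h0 (by simpa using hv)

end Crest.Agent.N207.TR

end
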