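import Crest.Agent.N207.TR.Lift
import Crest.Agent.N207.G.Tr

/-!
# Row 207 (helper38): the change of charts between two comparable necks, topological part
-/

set_option autoImplicit false
set_option linter.style.haveILetI false
set_option linter.unusedSectionVars false

open scoped ContDiff Manifold Topology
open Set Filter Metric

noncomputable section

namespace Crest.Agent.N207.TR

open Sk

variable {M : Type*} [TopologicalSpace M] [ChartedSpace E4 M] [IsManifold 𝓘(ℝ, E4) ∞ M]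
  {N N' : Nk M} {r1 r2 : ℝ}

theorem cmp_symm (h : Cmp N N' r1 r2) : Cmp N' N r1 r2 := fun r hr => ⟨(h r hr).2, (h r hr).1⟩

theorem norm_eq_of (hN : N.Top) {x y : E4} (hx : x ∈ shell N.a N.b) (hy : y ∈ shell N.a N.b)
    (e : N.Ψ x = N.Ψ y) : ‖x‖ = ‖y‖ := by
  obtain ⟨γ, -, rfl⟩ := (hN.fib x hx y hy).1 e
  simp

theorem psi_inv (hN : N.Top) {x : E4} (hx : x ∈ shell N.a N.b) {γ : E4 ≃ₗᵢ[ℝ] E4} (hγ : γ ∈ N.Γ) :
    N.Ψ (γ x) = N.Ψ x := ((hN.fib x hx _ (shell_iso γ hx)).2 ⟨γ, hγ, rfl⟩).symm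

theorem not_mem_Om (hN : N.Top) {x : E4} (hx : x ∈ shell N.a N.b) {s : ℝ} (hs : s ≤ ‖x‖) :
    N.Ψ x ∉ N.Om s := by
  rintro (h | ⟨y, hy, e⟩)
  · exact hN.disj x hx h
  · have := norm_eq_of hN ⟨hy.1, hy.2.trans_le (hs.trans hx.2.le)⟩ hx e
    linarith [hy.2]

/-- the data of two comparable necks -/
structure Two (N N' : Nk M) (r1 r2 : ℝ) : Prop where
  t : N.Top
  t' : N'.Top
  a : 2 * N.a ≤ r1
  a' : 2 * N'.a ≤ r1
  b : r2 ≤ N.b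
  b' : r2 ≤ N'.b
  r : 64 * r1 ≤ r2
  c : Cmp N N' r1 r2

theorem Two.symm (h : Two N N' r1 r2) : Two N' N r1 r2 :=
  ⟨h.t', h.t, h.a', h.a, h.b', h.b, h.r, cmp_symm h.c⟩

theorem Two.pos (h : Two N N' r1 r2) : 0 < r1 := by linarith [h.a, h.t.a_pos]

theorem Two.sub (h : Two N N' r1 r2) : shell r1 (r2 / 2) ⊆ shell N.a N.b :=
  shell_mono (by linarith [h.a, h.t.a_pos]) (by linarith [h.b, h.r, h.pos])

theorem Two.pt (h : Two N N' r1 r2) {x : E4} (hx : x ∈ shell r1 (r2 / 2)) :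
    ∃ y ∈ shell N'.a N'.b, N'.Ψ y = N.Ψ x ∧ ‖x‖ / 2 ≤ ‖y‖ ∧ ‖y‖ ≤ 2 * ‖x‖ := by
  have hp := h.pos
  have hx' := h.sub hx
  have h1 : N.Ψ x ∉ N'.Om (‖x‖ / 2) := fun hh =>
    not_mem_Om h.t hx' le_rfl ((h.c ‖x‖ ⟨hx.1.le, by linarith [hx.2, h.r]⟩).2 hh)
  have h2 : ∀ s, ‖x‖ < s → s ≤ r2 / 2 → N.Ψ x ∈ N'.Om (2 * s) := fun s hs hs' => by
    refine (h.c (2 * s) ⟨by linarith [hx.1], by linarith⟩).1 (Or.inr ⟨x, ⟨hx'.1, ?_⟩, rfl⟩)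
    linarith
  obtain h3 | ⟨y, hy, e⟩ := h2 (r2 / 2) hx.2 le_rfl
  · exact absurd (Or.inl h3) h1
  have hy' : y ∈ shell N'.a N'.b := ⟨hy.1, by linarith [hy.2, h.b']⟩
  refine ⟨y, hy', e, ?_, ?_⟩
  · by_contra hh
    exact h1 (Or.inr ⟨y, ⟨hy.1, not_le.1 hh⟩, e⟩)
  · by_contra hh
    have := h2 (min (‖y‖ / 2) (r2 / 2)) (lt_min (by linarith) hx.2) (min_le_right _ _)
    rw [← e] at this
    exact not_mem_Om h.t' hy' (by linarith [min_le_left (‖y‖ / 2) (r2 / 2)]) this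

/-- a lift of the change of charts -/
structure Lf (N N' : Nk M) (r1 r2 : ℝ) (Θ : E4 → E4) : Prop where
  sm : ContDiffOn ℝ ∞ Θ (shell r1 (r2 / 2))
  mem : ∀ x ∈ shell r1 (r2 / 2), Θ x ∈ shell N'.a N'.b
  eq : ∀ x ∈ shell r1 (r2 / 2), N'.Ψ (Θ x) = N.Ψ x
  lo : ∀ x ∈ shell r1 (r2 / 2), ‖x‖ / 2 ≤ ‖Θ x‖
  hi : ∀ x ∈ shell r1 (r2 / 2), ‖Θ x‖ ≤ 2 * ‖x‖

theorem Two.lift (h : Two N N' r1 r2) : ∃ Θ, Lf N N' r1 r2 Θ := by
  have hp := h.pos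
  choose! y hy e lo hi using fun x (hx : x ∈ shell r1 (r2 / 2)) => h.pt hx
  have loc : ∀ x ∈ shell r1 (r2 / 2), ∃ (T : E4 → E4) (V : Set E4), IsOpen V ∧ x ∈ V ∧
      V ⊆ shell r1 (r2 / 2) ∧ ContDiffOn ℝ ∞ T V ∧
      ∀ z ∈ V, T z ≠ 0 ∧ ∃ γ ∈ N'.Γ, γ (T z) = y z := fun x hx => by
    obtain ⟨T, V, hV, hxV, hVU, -, hT, hm⟩ :=
      Gs.exists_trans0 (Gs.par_mono h.t.par (isOpen_shell _ _) h.sub) h.t'.par hx (hy x hx) (e x hx)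
    exact ⟨T, V, hV, hxV, hVU, hT, fun z hz => ⟨shell_ne h.t'.a_pos.le (hm z hz).1,
      (h.t'.fib _ (hm z hz).1 _ (hy z (hVU hz))).1 ((hm z hz).2.trans (e z (hVU hz)).symm)⟩⟩
  obtain ⟨F, hF, hFy⟩ := lift_shell h.t'.grp hp.le (by linarith [h.r]) (y := y)
    (fun x hx => shell_ne h.t'.a_pos.le (hy x hx)) fun x hx => by
      obtain ⟨T, V, hV, hxV, -, hT, hm⟩ := loc x hx
      exact ⟨T, hT.continuousOn.continuousAt (hV.mem_nhds hxV),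
        mem_of_superset (hV.mem_nhds hxV) fun z hz => (hm z hz).2⟩
  have hn : ∀ x ∈ shell r1 (r2 / 2), ‖F x‖ = ‖y x‖ := fun x hx => by
    obtain ⟨γ, -, e⟩ := hFy x hx
    rw [← e]; simp
  have hm : ∀ x ∈ shell r1 (r2 / 2), F x ∈ shell N'.a N'.b := fun x hx => by
    show _ < _ ∧ _ < _
    rw [hn x hx]; exact hy x hx
  refine ⟨F, fun x hx => ?_, hm, fun x hx => ?_, fun x hx => (hn x hx).symm ▸ lo x hx,
    fun x hx => (hn x hx).symm ▸ hi x hx⟩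
  · obtain ⟨T, V, hV, hxV, hVU, hT, hm⟩ := loc x hx
    obtain ⟨ε, hε, hb⟩ := Metric.isOpen_iff.1 hV x hxV
    obtain ⟨γ, -, hγ⟩ := one_elt h.t'.grp (convex_ball x ε).isPreconnected
      (hF.mono (hb.trans hVU)) (hT.continuousOn.mono hb) (fun z hz => (hm z (hb hz)).1)
      fun z hz => by
        obtain ⟨γ, hγ, e⟩ := (hm z (hb hz)).2
        obtain ⟨γ', hγ', e'⟩ := hFy z (hVU (hb hz))
        refine ⟨γ'⁻¹ * γ, N'.Γ.mul_mem (N'.Γ.inv_mem hγ') hγ, ?_⟩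
        show γ'.symm (γ (T z)) = F z
        rw [e, ← e', γ'.symm_apply_apply]
    refine ContDiffAt.contDiffWithinAt ?_
    refine (γ.contDiff.contDiffAt.comp x (hT.contDiffAt (hV.mem_nhds hxV))).congr_of_eventuallyEq ?_
    exact mem_of_superset (ball_mem_nhds x hε) fun z hz => (hγ z hz).symm
  · obtain ⟨γ, hγ, e'⟩ := hFy x hx
    rw [← psi_inv h.t' (hm x hx) hγ, e', e x hx]

variable {Θ Θ' : E4 → E4}

theorem Two.hom (h : Two N N' r1 r2) (hΘ : Lf N N' r1 r2 Θ) :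
    ∃ ι : N.Γ →* N'.Γ, ∀ γ : N.Γ, ∀ x ∈ shell r1 (r2 / 2), Θ (γ.1 x) = (ι γ).1 (Θ x) := by
  have hp := h.pos
  have h0 : ∀ x ∈ shell r1 (r2 / 2), Θ x ≠ 0 := fun x hx => shell_ne h.t'.a_pos.le (hΘ.mem x hx)
  have : ∀ γ : N.Γ, ∃ γ' : N'.Γ, ∀ x ∈ shell r1 (r2 / 2), Θ (γ.1 x) = γ'.1 (Θ x) := fun γ => by
    obtain ⟨γ', hγ', e⟩ := one_elt h.t'.grp (shell_preconn (b := r2 / 2) hp.le)
      (f := fun x => Θ (γ.1 x)) (g := Θ)
      (hΘ.sm.continuousOn.comp γ.1.continuous.continuousOn fun x hx => shell_iso _ hx)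
      hΘ.sm.continuousOn h0 fun x hx => by
        refine (h.t'.fib _ (hΘ.mem x hx) _ (hΘ.mem _ (shell_iso _ hx))).1 ?_
        rw [hΘ.eq x hx, hΘ.eq _ (shell_iso _ hx), psi_inv h.t (h.sub hx) γ.2]
    exact ⟨⟨γ', hγ'⟩, fun x hx => (e x hx).symm⟩
  choose ι hι using this
  obtain ⟨x, hx⟩ := shell_nonempty (a := r1) (b := r2 / 2) hp.le (by linarith [h.r])
  refine ⟨MonoidHom.mk' ι fun a b => Subtype.ext ?_, hι⟩
  refine eq_of_apply h.t'.grp (ι (a * b)).2 (ι a * ι b).2 (h0 x hx) ?_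
  rw [← hι _ x hx]
  show Θ (a.1 (b.1 x)) = (ι a).1 ((ι b).1 (Θ x))
  rw [hι a _ (shell_iso _ hx), hι b x hx]

theorem Two.inj (h : Two N N' r1 r2) (hΘ : Lf N N' r1 r2 Θ) {ι : N.Γ →* N'.Γ}
    (hι : ∀ γ : N.Γ, ∀ x ∈ shell r1 (r2 / 2), Θ (γ.1 x) = (ι γ).1 (Θ x)) :
    Function.Injective ι := by
  have hp := h.pos
  obtain ⟨Θ', hΘ'⟩ := h.symm.lift
  have s : shell (2 * r1) (r2 / 4) ⊆ shell r1 (r2 / 2) :=
    shell_mono (by linarith) (by linarith [h.r])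
  have m : ∀ x ∈ shell (2 * r1) (r2 / 4), Θ x ∈ shell r1 (r2 / 2) := fun x hx =>
    ⟨by linarith [hΘ.lo x (s hx), hx.1], by linarith [hΘ.hi x (s hx), hx.2]⟩
  obtain ⟨γ₀, -, e⟩ := one_elt h.t.grp (shell_preconn (a := 2 * r1) (b := r2 / 4) (by linarith))
    (f := fun x => Θ' (Θ x)) (g := id)
    (hΘ'.sm.continuousOn.comp (hΘ.sm.continuousOn.mono s) m) continuousOn_id
    (fun x hx => shell_ne (by linarith) hx) fun x hx => by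
      refine (h.t.fib _ (h.sub (s hx)) _ (hΘ'.mem _ (m x hx))).1 ?_
      rw [hΘ'.eq _ (m x hx), hΘ.eq x (s hx)]
  obtain ⟨x, hx⟩ := shell_nonempty (a := 2 * r1) (b := r2 / 4) (by linarith) (by linarith [h.r])
  refine (injective_iff_map_eq_one ι).2 fun γ hγ => Subtype.ext ?_
  refine h.t.grp.free γ.1 γ.2 x (shell_ne (by linarith) hx) (γ₀.injective ?_)
  have e1 := e _ (shell_iso γ.1 hx)
  have e2 := e x hx
  simp only [id] at e1 e2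
  rw [e1, e2, hι γ x (s hx), hγ]
  rfl

/-- **the change of charts and the isomorphism of the deck groups** -/
theorem Two.iso (h : Two N N' r1 r2) : ∃ (Θ : E4 → E4) (ι : N.Γ ≃* N'.Γ), Lf N N' r1 r2 Θ ∧
    ∀ γ : N.Γ, ∀ x ∈ shell r1 (r2 / 2), Θ (γ.1 x) = (ι γ).1 (Θ x) := by
  obtain ⟨Θ, hΘ⟩ := h.lift
  obtain ⟨Θ', hΘ'⟩ := h.symm.lift
  obtain ⟨ι, hι⟩ := h.hom hΘ
  obtain ⟨ι', hι'⟩ := h.symm.hom hΘ'
  haveI := h.t.grp.fin
  haveI := h.t'.grp.fin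
  have hb : Function.Bijective ι := (h.inj hΘ hι).bijective_of_nat_card_le
    (Nat.card_le_card_of_injective ι' (h.symm.inj hΘ' hι'))
  exact ⟨Θ, MulEquiv.ofBijective ι hb, hΘ, hι⟩

end Crest.Agent.N207.TR

end
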