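import Crest.Agent.N207.TR.Main
import Crest.Agent.N207.G.Gl2
import Crest.Agent.N207.T.Defs

/-!
# Row 207 (helper38): `T.GLUE`, gluing of two comparable necks
-/

set_option autoImplicit false
set_option linter.style.haveILetI false
set_option linter.unusedSectionVars false

open scoped ContDiff Manifold Topology
open Set Filter Metric

noncomputable section

namespace Crest.Agent.N207.TR

open Sk

variable {M : Type*} [TopologicalSpace M] [ChartedSpace E4 M] [IsManifold 𝓘(ℝ, E4) ∞ M]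
  [T3Space M] [ConnectedSpace M] [MeasurableSpace M] [BorelSpace M]

theorem Om_mono (N : Nk M) {r r' : ℝ} (h : r ≤ r') : N.Om r ⊆ N.Om r' :=
  union_subset_union_right _ (image_mono (shell_mono le_rfl h))

/-- gluing data -/
structure Gd (N N' : Nk M) (r ε : ℝ) (A : E4 ≃ₗᵢ[ℝ] E4) (P : E4 → E4) : Prop where
  t : N.Top
  t' : N'.Top
  a : N.a ≤ r / 16
  a' : N'.a ≤ r / 16
  b : 8 * r ≤ N.b
  b' : 8 * r ≤ N'.b
  pert : G.Pert 1 P r ε
  eps : ε ≤ 1 / 100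
  he : ∀ x ∈ shell (r / 2) r, N'.Ψ (A (x + P x)) = N.Ψ x
  eqv : ∀ γ ∈ N.Γ, ∀ x, r / 2 < ‖x‖ → P (γ x) = γ (P x)
  c1 : ∀ γ ∈ N.Γ, ∃ γ' ∈ N'.Γ, ∀ x, A (γ x) = γ' (A x)
  c2 : ∀ γ' ∈ N'.Γ, ∃ γ ∈ N.Γ, ∀ x, A (γ x) = γ' (A x)
  k2 : N.Om (3 / 5 * r) ⊆ N'.Om (7 / 10 * r)
  k3 : N'.Om (7 / 10 * r) ⊆ N.Om r

/-- the glued neck -/
def glN (N N' : Nk M) (r : ℝ) (A : E4 ≃ₗᵢ[ℝ] E4) (P : E4 → E4) : Nk M :=
  ⟨N.Γ, G.gl N.Ψ (fun y => N'.Ψ (A y)) P r, N.In, N.a, N'.b⟩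

namespace Gd

variable {N N' : Nk M} {r ε : ℝ} {A : E4 ≃ₗᵢ[ℝ] E4} {P : E4 → E4} (h : Gd N N' r ε A P)
include h

theorem pos : 0 < r := by linarith [h.a, h.t.a_pos]

theorem inn {x : E4} (hx : ‖x‖ < r) : (glN N N' r A P).Ψ x = N.Ψ x :=
  G.gl_in (Ψ2 := fun y => N'.Ψ (A y)) h.pos h.he hx

theorem out {x : E4} (hx : r / 2 < ‖x‖) : (glN N N' r A P).Ψ x = N'.Ψ (A (x + P x)) :=
  G.gl_out (Ψ2 := fun y => N'.Ψ (A y)) h.pos h.he hx

theorem mem {x : E4} {s : ℝ} (hs : 2 * r ≤ s) (hx : x ∈ shell (r / 2) s) :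
    A (x + P x) ∈ shell N'.a s :=
  shell_iso A (h.pert.mem h.pos h.eps (by linarith [h.a', h.pos]) hs hx)

theorem low {x : E4} (hx : r ≤ ‖x‖) : 7 / 10 * r ≤ ‖A (x + P x)‖ := by
  have hp := h.pos
  have h1 := h.pert.val (x := x) (by linarith)
  have h2 := norm_sub_le (x + P x) (P x)
  rw [add_sub_cancel_right] at h2
  rw [A.norm_map]
  nlinarith [h.eps]

theorem par2 : Par (fun y => N'.Ψ (A y)) (shell N'.a N'.b) :=
  Gs.par_comp h.t'.par (isOpen_shell _ _) A.contDiff.contDiffOn (fun _ hy => shell_iso A hy)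
    fun y _ => by
      rw [show fderiv ℝ A y = (A.toContinuousLinearEquiv : E4 →L[ℝ] E4) from
        A.toContinuousLinearEquiv.fderiv]
      exact A.injective

theorem par : Par (glN N N' r A P).Ψ (shell N.a N'.b) := by
  have hp := h.pos
  refine Gs.par_of_local (isOpen_shell _ _) fun x hx => ?_
  by_cases h3 : ‖x‖ < r
  · exact ⟨shell N.a r, ⟨hx.1, h3⟩, Gs.par_congr (Gs.par_mono h.t.par (isOpen_shell _ _)
      (shell_mono le_rfl (by linarith [h.b]))) fun y hy => h.inn hy.2⟩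
  · exact ⟨shell (r / 2) N'.b, ⟨by linarith, hx.2⟩, Gs.par_congr (h.pert.par hp h.eps
      (by linarith [h.a']) (by linarith [h.b']) h.par2) fun y hy => h.out hy.1⟩

theorem not_in {x : E4} (hx : r ≤ ‖x‖) (hx' : ‖x‖ < N'.b) :
    (glN N N' r A P).Ψ x ∉ N.Om (3 / 5 * r) := fun hh => by
  have hp := h.pos
  rw [h.out (by linarith)] at hh
  exact not_mem_Om h.t' (h.mem (by linarith [h.b']) ⟨by linarith, hx'⟩) (h.low hx) (h.k2 hh)

theorem om_in {s : ℝ} (hs : s ≤ r) : (glN N N' r A P).Om s = N.Om s :=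
  congrArg (N.In ∪ ·) (image_congr fun _ hx => h.inn (hx.2.trans_le hs))

theorem top : (glN N N' r A P).Top := by
  have hp := h.pos
  have hb := h.b
  have hb' := h.b'
  have ha := h.a
  refine ⟨h.t.grp, h.t.a_pos, show N.a < N'.b by linarith, h.par,
    fun x hx y hy => ⟨fun e => ?_, ?_⟩, fun x hx hh => ?_, fun s hs => ?_, fun s hs => ?_, h.t.ne⟩
  · by_cases h3 : ‖x‖ < r ∧ ‖y‖ < r
    · rw [h.inn h3.1, h.inn h3.2] at e
      exact (h.t.fib x ⟨hx.1, by linarith [h3.1]⟩ y ⟨hy.1, by linarith [h3.2]⟩).1 e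
    have key : ∀ x ∈ shell N.a N'.b, ∀ y ∈ shell N.a N'.b,
        (glN N N' r A P).Ψ x = (glN N N' r A P).Ψ y → r ≤ ‖y‖ → 3 / 5 * r ≤ ‖x‖ :=
      fun x hx y hy e h4 => by
        by_contra h5
        refine h.not_in h4 hy.2 (Or.inr ⟨x, ⟨hx.1, not_le.1 h5⟩, ?_⟩)
        rw [← e, h.inn (by linarith [not_le.1 h5])]
    have h4 : 3 / 5 * r ≤ ‖x‖ ∧ 3 / 5 * r ≤ ‖y‖ := by
      rcases not_and_or.1 h3 with h5 | h5
      · exact ⟨by linarith [not_lt.1 h5], key y hy x hx e.symm (not_lt.1 h5)⟩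
      · exact ⟨key x hx y hy e (not_lt.1 h5), by linarith [not_lt.1 h5]⟩
    have h5 : r / 2 < ‖x‖ := by linarith [h4.1]
    have h6 : r / 2 < ‖y‖ := by linarith [h4.2]
    rw [h.out h5, h.out h6] at e
    obtain ⟨γ', hγ', e'⟩ := (h.t'.fib _ (h.mem (by linarith) ⟨h5, hx.2⟩) _
      (h.mem (by linarith) ⟨h6, hy.2⟩)).1 e
    obtain ⟨γ, hγ, hc⟩ := h.c2 γ' hγ'
    rw [← hc, A.injective.eq_iff, map_add, ← h.eqv γ hγ x h5] at e'
    exact ⟨γ, hγ, h.pert.inj hp h.eps (by rw [γ.norm_map]; exact h4.1) h4.2 e'⟩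
  · rintro ⟨γ, hγ, rfl⟩
    by_cases h3 : ‖x‖ < r
    · rw [h.inn h3, h.inn (by rwa [γ.norm_map])]
      exact (psi_inv h.t ⟨hx.1, by linarith⟩ hγ).symm
    · have h5 : r / 2 < ‖x‖ := by linarith
      obtain ⟨γ', hγ', hc⟩ := h.c1 γ hγ
      rw [h.out h5, h.out (by rwa [γ.norm_map]), h.eqv γ hγ x h5, ← map_add, hc]
      exact (psi_inv h.t' (h.mem (by linarith) ⟨h5, hx.2⟩) hγ').symm
  · by_cases h3 : ‖x‖ < r
    · rw [h.inn h3] at hh
      exact h.t.disj x ⟨hx.1, by linarith⟩ hh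
    · exact h.not_in (not_lt.1 h3) hx.2 (Or.inl hh)
  · have e : (glN N N' r A P).Om s = N.Om (min s r) ∪ (glN N N' r A P).Ψ '' shell N.a s := by
      rw [← h.om_in (min_le_right s r)]
      exact (union_eq_self_of_subset_right subset_union_right).symm.trans (by
        refine Subset.antisymm (union_subset ?_ subset_union_right)
          (union_subset_union_left _ (Om_mono _ (min_le_left _ _)))
        exact union_subset (subset_union_left.trans subset_union_left) subset_union_right)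
    rw [e]
    exact (h.t.opn _ ⟨lt_min hs.1 (by linarith), (min_le_right _ _).trans (by linarith)⟩).union
      (Gs.par_isOpen h.par (isOpen_shell _ _) (shell_mono le_rfl hs.2))
  · set c := min s (4 / 5 * r) with hc
    have c1 : N.a < c := lt_min hs.1 (by linarith)
    have c2 : c ≤ 4 / 5 * r := min_le_right _ _
    have c3 : c ≤ s := min_le_left _ _
    have hK : IsCompact {x : E4 | c ≤ ‖x‖ ∧ ‖x‖ ≤ s} :=
      (isCompact_closedBall (0 : E4) s).of_isClosed_subset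
        ((isClosed_le continuous_const continuous_norm).inter
          (isClosed_le continuous_norm continuous_const))
        fun x hx => mem_closedBall_zero_iff.2 hx.2
    have h1 := (hK.image_of_continuousOn ((Gs.par_cont h.par).mono fun x hx =>
      ⟨c1.trans_le hx.1, hx.2.trans_lt hs.2⟩)).isClosed
    convert (h.t.cls c ⟨c1, by linarith⟩).union h1 using 1
    refine Subset.antisymm (union_subset (subset_union_left.trans subset_union_left) ?_)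
      (union_subset (union_subset subset_union_left ?_) ?_)
    · rintro _ ⟨x, hx, rfl⟩
      by_cases h3 : ‖x‖ ≤ c
      · exact Or.inl (Or.inr ⟨x, ⟨hx.1, h3⟩, (h.inn (by linarith)).symm⟩)
      · exact Or.inr ⟨x, ⟨(not_le.1 h3).le, hx.2⟩, rfl⟩
    · rintro _ ⟨x, hx, rfl⟩
      exact Or.inr ⟨x, ⟨hx.1, hx.2.trans c3⟩, h.inn (by linarith [hx.2])⟩
    · rintro _ ⟨x, hx, rfl⟩
      exact Or.inr ⟨x, ⟨c1.trans_le hx.1, hx.2⟩, rfl⟩

theorem om_out {s : ℝ} (hs : 2 * r ≤ s) : (glN N N' r A P).Om s = N'.Om s := by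
  have hp := h.pos
  have ha := h.a
  have k2 : N.Om (3 / 5 * r) ⊆ N'.Om s := h.k2.trans (Om_mono _ (by linarith))
  have k3 : N'.Om (7 / 10 * r) ⊆ (glN N N' r A P).Om s :=
    h.k3.trans ((h.om_in le_rfl).symm.subset.trans (Om_mono _ (by linarith)))
  refine Subset.antisymm (union_subset (subset_union_left.trans k2) ?_)
    (union_subset (subset_union_left.trans k3) ?_)
  · rintro _ ⟨x, hx, rfl⟩
    by_cases h3 : ‖x‖ < 3 / 5 * r
    · exact k2 (Or.inr ⟨x, ⟨hx.1, h3⟩, (h.inn (by linarith)).symm⟩)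
    · have h5 : r / 2 < ‖x‖ := by linarith
      exact Or.inr ⟨_, h.mem hs ⟨h5, hx.2⟩, (h.out h5).symm⟩
  · rintro _ ⟨y, hy, rfl⟩
    by_cases h3 : ‖y‖ < 7 / 10 * r
    · exact k3 (Or.inr ⟨y, ⟨hy.1, h3⟩, rfl⟩)
    obtain ⟨y, rfl⟩ := A.surjective y
    have h4 := hy.2
    rw [A.norm_map] at h3 h4
    by_cases h6 : 3 / 2 * r ≤ ‖y‖
    · exact Or.inr ⟨y, ⟨show N.a < _ by linarith, h4⟩, by
        rw [h.out (by linarith), h.pert.zero y h6, add_zero]⟩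
    · obtain ⟨x, hx, e⟩ := h.pert.surj hp h.eps (y := y) (by linarith)
      have h7 := norm_sub_norm_le x y
      have h8 := norm_sub_norm_le y x
      rw [norm_sub_rev] at h8
      exact Or.inr ⟨x, ⟨show N.a < _ by linarith, by linarith⟩, by rw [h.out (by linarith), e]⟩

end Gd

/-- `TRANS` without the unused hypotheses, for a given lift -/
theorem ana : ∃ η0 : ℝ, 0 < η0 ∧ ∀ m : ℕ, ∃ C : ℝ, 0 < C ∧ ∀ (g : Met 4 M) (N N' : Nk M)
    (r1 r2 : ℝ) (Θ : E4 → E4) (ι : N.Γ ≃* N'.Γ), Two N N' r1 r2 → Lf N N' r1 r2 Θ →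
    (∀ γ : N.Γ, ∀ x ∈ shell r1 (r2 / 2), Θ (γ.1 x) = (ι γ).1 (Θ x)) →
      ∀ r δ : ℝ, 4 * r1 ≤ r → 8 * r ≤ r2 → 0 ≤ δ → δ ≤ η0 →
        (∀ x ∈ shell (r / 4) (4 * r), JG (m + 1) (g.pm N.Ψ) x ‖x‖ δ) →
        (∀ x ∈ shell (r / 8) (8 * r), JG (m + 1) (g.pm N'.Ψ) x ‖x‖ δ) →
        ∃ A : E4 ≃ₗᵢ[ℝ] E4, (∀ γ : N.Γ, ∀ x, A (γ.1 x) = (ι γ).1 (A x)) ∧
          ∀ x ∈ shell (r / 2) (2 * r), ∀ k ≤ m + 2, J1 k (fun y => Θ y - A y) x r (C * δ * r) := by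
  obtain ⟨η0, hη, h⟩ := euc
  refine ⟨η0, hη, fun m => ?_⟩
  obtain ⟨C, hC, h⟩ := h m
  refine ⟨C, hC, fun g N N' r1 r2 Θ ι hT hΘ hι r δ hr1 hr2 hδ hδ' j1 j2 => ?_⟩
  have hp := hT.pos
  have s1 : shell (r / 4) (4 * r) ⊆ shell r1 (r2 / 2) := shell_mono (by linarith) (by linarith)
  haveI := hT.t.grp.fin
  refine h N.Γ (N'.Γ.subtype.comp ι.toMonoidHom) N.Γ.subtype _ _ Θ _ _ r δ ?_
    (Gs.pull_of' g hT.t.par hT.t'.par (isOpen_shell _ _) hT.sub hΘ.sm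
      fun z hz => ⟨hΘ.mem z hz, hΘ.eq z hz⟩) (by linarith) s1
    (fun x hx => ⟨by linarith [hΘ.lo x (s1 hx), hx.1], by linarith [hΘ.hi x (s1 hx), hx.2]⟩)
    (fun γ x hx => hι γ x (s1 hx)) hδ hδ' j1 j2
  obtain ⟨γ, hγ⟩ := (Subgroup.ne_bot_iff_exists_ne_one).1 hT.t'.grp.ne
  refine ⟨ι.symm γ, fun v hv => by_contra fun h0 => hγ (Subtype.ext ?_)⟩
  exact hT.t'.grp.free γ.1 γ.2 v h0 (by simpa using hv)

theorem norm_near {Θ : E4 → E4} {A : E4 ≃ₗᵢ[ℝ] E4} {x : E4} {s c : ℝ}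
    (h : J1 0 (fun y => Θ y - A y) x s c) : |‖Θ x‖ - ‖x‖| ≤ c := by
  have h1 : ‖Θ x - A x‖ ≤ c := by simpa [J1, norm_iteratedFDeriv_zero] using h
  rw [← A.norm_map x]
  exact (abs_norm_sub_norm_le _ _).trans h1

/-- existence of gluing data -/
theorem exists_gd : ∃ η0 C : ℝ, 0 < η0 ∧ 1 ≤ C ∧ ∀ (g : Met 4 M) (N N' : Nk M) (δ r1 r2 : ℝ),
    Two N N' r1 r2 → 0 ≤ δ → δ ≤ η0 → (∀ x ∈ shell N.a N.b, JG 2 (g.pm N.Ψ) x ‖x‖ δ) →
    (∀ x ∈ shell N'.a N'.b, JG 2 (g.pm N'.Ψ) x ‖x‖ δ) →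
    ∃ A P, Gd N N' (8 * r1) (C * δ) A P ∧ G.Pert 3 P (8 * r1) (C * δ) := by
  obtain ⟨η0, hη0, hA⟩ := ana (M := M)
  obtain ⟨C, hC, hA⟩ := hA 1
  obtain ⟨C', hC', hP⟩ := G.exists_P 3
  have hK : 1 ≤ C' * (C + 1) := one_le_mul_of_one_le_of_one_le hC' (by linarith)
  refine ⟨min η0 (1 / (100 * (C' * (C + 1)))), C' * (C + 1), by positivity, hK,
    fun g N N' δ r1 r2 hT h0 h1 j1 j2 => ?_⟩
  have h2 : δ ≤ η0 := h1.trans (min_le_left _ _)
  have h3 : C' * (C + 1) * δ ≤ 1 / 100 := by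
    have := h1.trans (min_le_right _ _)
    rw [le_div_iff₀ (by positivity)] at this
    linarith
  have h4 : C * δ ≤ 1 / 100 := le_trans (by gcongr; nlinarith) h3
  have hp := hT.pos
  have ⟨ha, ha', hb, hb', hr⟩ : 2 * N.a ≤ r1 ∧ 2 * N'.a ≤ r1 ∧ r2 ≤ N.b ∧ r2 ≤ N'.b ∧ 64 * r1 ≤ r2 :=
    ⟨hT.a, hT.a', hT.b, hT.b', hT.r⟩
  have a0 := hT.t.a_pos
  have a0' := hT.t'.a_pos
  obtain ⟨Θ, ι, hΘ, hι⟩ := hT.iso
  obtain ⟨A, hAi, hJ⟩ := hA g N N' r1 r2 Θ ι hT hΘ hι (8 * r1) δ (by linarith) (by linarith) h0 h2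
    (fun x hx => j1 x (shell_mono (by linarith) (by linarith) hx))
    fun x hx => j2 x (shell_mono (by linarith) (by linarith) hx)
  obtain ⟨A2, -, hJ2⟩ := hA g N N' r1 r2 Θ ι hT hΘ hι (4 * r1) δ le_rfl (by linarith) h0 h2
    (fun x hx => j1 x (shell_mono (by linarith) (by linarith) hx))
    fun x hx => j2 x (shell_mono (by linarith) (by linarith) hx)
  have S : ∀ x ∈ shell (2 * r1) (16 * r1), |‖Θ x‖ - ‖x‖| ≤ 8 * r1 / 100 := fun x hx => by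
    by_cases h5 : ‖x‖ < 8 * r1
    · exact (norm_near (hJ2 x ⟨by linarith [hx.1], by linarith⟩ 0 (by omega))).trans (by nlinarith)
    · exact (norm_near (hJ x ⟨by linarith, by linarith [hx.2]⟩ 0 (by omega))).trans (by nlinarith)
  have s2 : shell (2 * r1) (16 * r1) ⊆ shell r1 (r2 / 2) := shell_mono (by linarith) (by linarith)
  have s3 : shell (8 * r1 / 2) (2 * (8 * r1)) ⊆ shell r1 (r2 / 2) :=
    shell_mono (by linarith) (by linarith)
  obtain ⟨P, p1, p2, p3⟩ := hP Θ A (8 * r1) ((C + 1) * δ) (by linarith) (by positivity)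
    (hΘ.sm.mono s3) fun x hx k hk => (hJ x hx k hk).trans (by gcongr; linarith)
  rw [← mul_assoc] at p1
  refine ⟨A, P, ⟨hT.t, hT.t', by linarith, by linarith, by linarith, by linarith,
    p1.of_le (by norm_num), h3, fun x hx => ?_, fun γ hγ => ?_,
    fun γ hγ => ⟨_, (ι ⟨γ, hγ⟩).2, hAi ⟨γ, hγ⟩⟩,
    fun γ hγ => ⟨_, (ι.symm ⟨γ, hγ⟩).2, fun x => by simpa using hAi (ι.symm ⟨γ, hγ⟩) x⟩,
    fun p hp' => ?_, fun p hp' => ?_⟩, p1⟩
  · rw [p2 x hx]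
    exact hΘ.eq x (shell_mono (by linarith) (by linarith) hx)
  · exact p3 γ (ι ⟨γ, hγ⟩).1 (hAi ⟨γ, hγ⟩) fun x hx => hι ⟨γ, hγ⟩ x (s3 hx)
  · by_cases h5 : p ∈ N.Om (5 * r1 / 2)
    · exact Om_mono _ (by linarith) ((hT.c (5 * r1) ⟨by linarith, by linarith⟩).1 h5)
    obtain h6 | ⟨x, hx, rfl⟩ := hp'
    · exact absurd (Or.inl h6) h5
    have h7 : 5 * r1 / 2 ≤ ‖x‖ := not_lt.1 fun h => h5 (Or.inr ⟨x, ⟨hx.1, h⟩, rfl⟩)
    have h8 : x ∈ shell (2 * r1) (16 * r1) := ⟨by linarith, by linarith [hx.2]⟩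
    exact Or.inr ⟨Θ x, ⟨(hΘ.mem x (s2 h8)).1, by linarith [(abs_le.1 (S x h8)).2, hx.2]⟩,
      hΘ.eq x (s2 h8)⟩
  · by_cases h5 : p ∈ N'.Om (8 * r1 / 2)
    · exact (hT.c (8 * r1) ⟨by linarith, by linarith⟩).2 h5
    obtain h6 | ⟨y, hy, rfl⟩ := hp'
    · exact absurd (Or.inl h6) h5
    have h7 : 8 * r1 / 2 ≤ ‖y‖ := not_lt.1 fun h => h5 (Or.inr ⟨y, ⟨hy.1, h⟩, rfl⟩)
    have h9 := hy.2
    obtain ⟨x, hx, e, lo, hi⟩ := hT.symm.pt (x := y) ⟨by linarith, by linarith⟩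
    refine Or.inr ⟨x, ⟨hx.1, not_le.1 fun h => ?_⟩, e⟩
    have h8 : x ∈ shell (2 * r1) (16 * r1) := ⟨by linarith, by linarith⟩
    have := norm_eq_of hT.t' (hΘ.mem x (s2 h8)) ⟨hy.1, by linarith⟩ ((hΘ.eq x (s2 h8)).trans e)
    linarith [(abs_le.1 (S x h8)).1]

/-- **gluing of two necks** -/
theorem glue (M : Type*) [TopologicalSpace M] [ChartedSpace E4 M] [IsManifold 𝓘(ℝ, E4) ∞ M]
    [T3Space M] [ConnectedSpace M] [MeasurableSpace M] [BorelSpace M] : T.GLUE M := by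
  obtain ⟨η0, C, hη0, hC, hG⟩ := exists_gd (M := M)
  obtain ⟨Cr, hCr, hrot⟩ := G.jg_rot (M := M) 1
  obtain ⟨Cp, hCp, hpert⟩ := G.jg_pert (M := M) 1
  set K : ℝ := 8 * C * Cr with hK
  have k1 : Cr ≤ K := le_mul_of_one_le_left (by linarith) (by linarith)
  have k2 : 4 * Cr ≤ K := by rw [hK]; gcongr; linarith
  have k3 : 8 * C ≤ K := le_mul_of_one_le_right (by linarith) hCr
  have k4 : K ≤ Cp * K := le_mul_of_one_le_left (by linarith) hCp
  refine ⟨min η0 (1 / K), Cp * K, lt_min hη0 (by rw [one_div, inv_pos]; linarith), by linarith,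
    fun g N N' V V' δ r1 r2 t t' h0 h1 R R' a a' b b' hr c => ?_⟩
  have hT : Two N N' r1 r2 := ⟨t, t', a, a', b, b', hr, c⟩
  have h2 : K * δ ≤ 1 := by
    have := h1.trans (min_le_right _ _)
    rwa [le_div_iff₀' (by linarith)] at this
  obtain ⟨A, P, h, hP⟩ := hG g N N' δ r1 r2 hT h0 (h1.trans (min_le_left _ _)) R.jet R'.jet
  set r := 8 * r1 with hrd
  have hp := h.pos
  have hb := h.b
  have ha' := h.a'
  refine ⟨glN N N' r A P, h.top, rfl, rfl, rfl, ⟨fun x hx => ?_, R.vol⟩,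
    fun s hs => h.om_out (by linarith [hs.1])⟩
  have rot : ∀ y ∈ shell N'.a N'.b, JG 2 (g.pm fun z => N'.Ψ (A z)) y ‖y‖ (Cr * δ) := fun y hy =>
    hrot g N'.Ψ _ A y _ δ t'.par (shell_iso A hy) (t'.a_pos.trans hy.1)
      (by simpa only [A.norm_map] using R'.jet _ (shell_iso A hy))
  by_cases k1' : ‖x‖ < r
  · refine G.jg_mono (G.jg_congr (R.jet x ⟨hx.1, by linarith⟩) (G.pm_ev_congr g ?_))
      (le_mul_of_one_le_left h0 (by linarith))
    filter_upwards [continuous_norm.continuousAt.eventually (gt_mem_nhds k1')] with y hy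
    exact h.inn hy
  push Not at k1'
  by_cases k2' : 3 / 2 * r < ‖x‖
  · refine G.jg_mono (G.jg_congr (rot x ⟨by linarith, hx.2⟩) (G.pm_ev_congr g ?_))
      (by gcongr; linarith)
    filter_upwards [continuous_norm.continuousAt.eventually (lt_mem_nhds k2')] with y hy
    rw [h.out (by linarith), hP.zero y hy.le, add_zero]
  push Not at k2'
  have h5 : r / 2 < ‖x‖ := by linarith
  have hm : x + P x ∈ shell N'.a N'.b :=
    h.pert.mem hp h.eps (by linarith) (by linarith [h.b']) ⟨h5, hx.2⟩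
  have hv : ‖x‖ ≤ 2 * ‖x + P x‖ := by
    have h6 := h.pert.val h5
    have h7 := norm_sub_le (x + P x) (P x)
    rw [add_sub_cancel_right] at h7
    nlinarith [h.eps]
  rw [mul_assoc]
  refine G.jg_congr (hpert g _ _ P x ‖x‖ (K * δ) h.par2 hm (by linarith) h2
    (G.jg_of_jb fun i j => ((G.jb_of_jg (G.pm_smooth g h.par2 hm) (rot _ hm) i j).scale
      (norm_nonneg _) (norm_nonneg _) one_le_two hv).mono ?_)
    (((hP.jb x h5).scale hp.le (norm_nonneg _) one_le_two (by linarith)).mono ?_))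
    (G.pm_ev_congr g ?_)
  · nlinarith
  · have : C * δ * r ≤ C * δ * ‖x‖ := by gcongr
    have h6 : 8 * C * (δ * ‖x‖) ≤ K * (δ * ‖x‖) := by gcongr
    nlinarith
  · filter_upwards [continuous_norm.continuousAt.eventually (lt_mem_nhds h5)] with y hy
    exact h.out hy

end Crest.Agent.N207.TR

end
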