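import Crest.Agent.N207.I.Met

/-!
# Row 207 (helper38): finite order jet calculus with a weight

`FO m w f x`: `f j` is smooth at `x j`, its jets of order `≤ m` at `x j` are `O(w j)`, uniformly.
-/

set_option autoImplicit false
open Set Filter Topology Function Metric Asymptotics
open scoped ContDiff
open Crest.GeometryTopology.CoordMetric Crest.GeometryTopology.ChartCurvature
open Crest.Agent.R202.Tens

noncomputable section

namespace Crest.Agent.N207.TR

open Jt

variable {ι X Y Z W : Type} [NormedAddCommGroup X] [NormedSpace ℝ X] [NormedAddCommGroup Y]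
  [NormedSpace ℝ Y] [NormedAddCommGroup Z] [NormedSpace ℝ Z] [NormedAddCommGroup W]
  [NormedSpace ℝ W]

/-- smooth germs whose jets of order `≤ m` are `O(w)` -/
structure FO (m : ℕ) (w : ι → ℝ) (f : ι → X → Y) (x : ι → X) : Prop where
  sm : ∀ j, ContDiffAt ℝ ∞ (f j) (x j)
  bd : ∀ k ≤ m, (fun j => iteratedFDeriv ℝ k (f j) (x j)) =O[⊤] w

variable {m : ℕ} {w : ι → ℝ} {f f' : ι → X → Y} {x : ι → X}

theorem FO.of_le (hs : ∀ j, ContDiffAt ℝ ∞ (f j) (x j)) {C : ℝ}
    (h : ∀ k ≤ m, ∀ j, ‖iteratedFDeriv ℝ k (f j) (x j)‖ ≤ C * |w j|) : FO m w f x :=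
  ⟨hs, fun k hk => IsBigO.of_bound C (eventually_top.2 (h k hk))⟩

theorem FO.le (h : FO m w f x) :
    ∃ C, 0 < C ∧ ∀ k ≤ m, ∀ j, ‖iteratedFDeriv ℝ k (f j) (x j)‖ ≤ C * |w j| := by
  have : ∀ k : Fin (m + 1), ∃ C, ∀ j, ‖iteratedFDeriv ℝ k (f j) (x j)‖ ≤ C * |w j| := fun k => by
    obtain ⟨C, hC⟩ := (h.bd k (by omega)).bound
    exact ⟨C, eventually_top.1 hC⟩
  choose C hC using this
  obtain ⟨D, hD⟩ := (finite_range C).bddAbove
  refine ⟨max D 1, by positivity, fun k hk j => (hC ⟨k, by omega⟩ j).trans ?_⟩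
  exact mul_le_mul_of_nonneg_right ((hD (mem_range_self _)).trans (le_max_left _ _)) (abs_nonneg _)

theorem FO.mono {m' : ℕ} (h : FO m w f x) (hm : m' ≤ m) : FO m' w f x :=
  ⟨h.sm, fun k hk => h.bd k (hk.trans hm)⟩

theorem FO.wt {w' : ι → ℝ} (h : FO m w f x) (hw : w =O[⊤] w') : FO m w' f x :=
  ⟨h.sm, fun k hk => (h.bd k hk).trans hw⟩

theorem FO.congr (h : FO m w f x) (e : ∀ j, f' j =ᶠ[𝓝 (x j)] f j) : FO m w f' x :=
  ⟨fun j => (h.sm j).congr_of_eventuallyEq (e j), fun k hk =>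
    (h.bd k hk).congr_left fun j => ((e j).iteratedFDeriv ℝ k).eq_of_nhds.symm⟩

theorem FO.bu (h : FO m (fun _ => 1) f x) {k : ℕ} (hk : k ≤ m) :
    (⊤ : Filter ι).IsBoundedUnder (· ≤ ·) fun j => ‖ftaylorSeries ℝ (f j) (x j) k‖ :=
  (h.bd k hk).isBoundedUnder_le

theorem FO.comp {g : ι → Y → Z} (hg : FO m w g fun j => f j (x j)) (hf : FO m (fun _ => 1) f x) :
    FO m w (fun j z => g j (f j z)) x := by
  refine ⟨fun j => (hg.sm j).comp _ (hf.sm j), fun k hk => ?_⟩
  have := FormalMultilinearSeries.taylorComp_sub_taylorComp_isBigO (l := ⊤)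
    (p₁ := fun _ => 0) (p₂ := fun j => ftaylorSeries ℝ (g j) (f j (x j)))
    (q₁ := fun j => ftaylorSeries ℝ (f j) (x j)) (q₂ := fun j => ftaylorSeries ℝ (f j) (x j))
    (f := w) (n := k) (fun i _ => by simpa using isBoundedUnder_const)
    (fun i hi => (hg.bd i (hi.trans hk)).neg_left.congr_left fun _ => (zero_sub _).symm)
    (fun i hi => hf.bu (hi.trans hk)) (fun i hi => hf.bu (hi.trans hk))
    (fun i _ => by simp only [sub_self]; exact isBigO_zero _ _)
  refine this.neg_left.congr_left fun j => ?_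
  have e := iteratedFDeriv_comp (hg.sm j) (hf.sm j) (kle k)
  have z : (0 : FormalMultilinearSeries ℝ Y Z).taylorComp (ftaylorSeries ℝ (f j) (x j)) k = 0 := by
    simp only [FormalMultilinearSeries.taylorComp]
    refine Finset.sum_eq_zero fun c _ => ?_
    ext v; simp
  rw [z, zero_sub, neg_neg, ← e]
  rfl

theorem FO.fixed {Φ : X → Y} {K : Set X} (hK : IsCompact K) (hΦ : ∀ z ∈ K, ContDiffAt ℝ ∞ Φ z)
    (hx : ∀ j, x j ∈ K) : FO m (fun _ => 1) (fun _ => Φ) x := by
  refine ⟨fun j => hΦ _ (hx j), fun k _ => ?_⟩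
  obtain ⟨C, hC⟩ := hK.exists_bound_of_continuousOn (f := iteratedFDeriv ℝ k Φ) fun z hz =>
    ((hΦ z hz).continuousAt_iteratedFDeriv (kle k)).continuousWithinAt
  exact IsBigO.of_bound C (eventually_top.2 fun j => by simpa using hC _ (hx j))

theorem FO.smoothOn {Φ : Y → Z} {K : Set Y} (hK : IsCompact K) (hΦ : ∀ z ∈ K, ContDiffAt ℝ ∞ Φ z)
    (h : FO m (fun _ => 1) f x) (hx : ∀ j, f j (x j) ∈ K) :
    FO m (fun _ => 1) (fun j z => Φ (f j z)) x := (FO.fixed hK hΦ hx).comp h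

theorem FO.const (c : Y) : FO m (fun _ => 1) (fun _ _ => c) x := by
  refine FO.of_le (fun _ => contDiffAt_const) (C := ‖c‖) fun k _ j => ?_
  rcases eq_or_ne k 0 with rfl | hk
  · simp [norm_iteratedFDeriv_zero]
  · simp [iteratedFDeriv_const_of_ne hk]

theorem FO.zero : FO m w (fun _ _ => (0 : Y)) x :=
  FO.of_le (fun _ => contDiffAt_const) (C := 0) fun k _ j => by simp

theorem FO.add (h : FO m w f x) (h' : FO m w f' x) : FO m w (fun j z => f j z + f' j z) x :=
  ⟨fun j => (h.sm j).add (h'.sm j), fun k hk => ((h.bd k hk).add (h'.bd k hk)).congr_left fun j =>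
    (iteratedFDeriv_add_apply ((h.sm j).of_le (kle k)) ((h'.sm j).of_le (kle k))).symm⟩

theorem FO.sub (h : FO m w f x) (h' : FO m w f' x) : FO m w (fun j z => f j z - f' j z) x :=
  ⟨fun j => (h.sm j).sub (h'.sm j), fun k hk => ((h.bd k hk).sub (h'.bd k hk)).congr_left fun j =>
    (iteratedFDeriv_sub_apply ((h.sm j).of_le (kle k)) ((h'.sm j).of_le (kle k))).symm⟩

theorem FO.sum {α : Type} (s : Finset α) {u : α → ι → X → Y} (h : ∀ a ∈ s, FO m w (u a) x) :
    FO m w (fun j z => ∑ a ∈ s, u a j z) x := by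
  classical
  induction s using Finset.induction_on with
  | empty => simpa using FO.zero
  | insert a s ha ih =>
    simpa [Finset.sum_insert ha] using (h a (by simp)).add (ih fun b hb => h b (by simp [hb]))

theorem FO.clm (L : Y →L[ℝ] Z) (h : FO m w f x) : FO m w (fun j z => L (f j z)) x := by
  refine ⟨fun j => L.contDiff.contDiffAt.comp _ (h.sm j), fun k hk => ?_⟩
  refine (IsBigO.of_bound ‖L‖ (eventually_top.2 fun j => ?_)).trans (h.bd k hk)
  exact L.norm_iteratedFDeriv_comp_left (h.sm j) (kle k)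

theorem bil_le (B : Y →L[ℝ] Z →L[ℝ] W) {f : X → Y} {g : X → Z} {x : X} (hf : ContDiffAt ℝ ∞ f x)
    (hg : ContDiffAt ℝ ∞ g x) (k : ℕ) : ‖iteratedFDeriv ℝ k (fun y => B (f y) (g y)) x‖ ≤
      ‖B‖ * ∑ i ∈ Finset.range (k + 1), (k.choose i : ℝ) * ‖iteratedFDeriv ℝ i f x‖ *
        ‖iteratedFDeriv ℝ (k - i) g x‖ := by
  obtain ⟨u, hu, hxu, hs⟩ := (hf.prodMk hg).contDiffWithinAt (s := univ) |>.contDiffOn' (kle k)
    (by simp)
  rw [insert_eq_of_mem (mem_univ x), univ_inter] at hs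
  have := B.norm_iteratedFDerivWithin_le_of_bilinear hs.fst hs.snd hu.uniqueDiffOn hxu le_rfl
  simpa only [iteratedFDerivWithin_of_isOpen _ hu hxu] using this

theorem FO.bil (B : Y →L[ℝ] Z →L[ℝ] W) {g : ι → X → Z} (hf : FO m w f x)
    (hg : FO m (fun _ => 1) g x) : FO m w (fun j z => B (f j z) (g j z)) x := by
  refine ⟨fun j => (B.contDiff.contDiffAt.comp _ (hf.sm j)).clm_apply (hg.sm j), fun k hk => ?_⟩
  refine (IsBigO.of_bound (g := fun j => ∑ i ∈ Finset.range (k + 1), (k.choose i : ℝ) *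
    ‖iteratedFDeriv ℝ i (f j) (x j)‖ * ‖iteratedFDeriv ℝ (k - i) (g j) (x j)‖) ‖B‖
    (eventually_top.2 fun j => (bil_le B (hf.sm j) (hg.sm j) k).trans
      (mul_le_mul_of_nonneg_left (le_abs_self _) (norm_nonneg B)))).trans ?_
  refine IsBigO.fun_sum fun i hi => ?_
  have hi' : i ≤ k := by simpa [Nat.lt_succ_iff] using hi
  have := ((hf.bd i (hi'.trans hk)).norm_left.const_mul_left (k.choose i : ℝ)).mul
    (hg.bd (k - i) (by omega)).norm_left
  simpa using this

theorem FO.bil' (B : Y →L[ℝ] Z →L[ℝ] W) {g : ι → X → Z} (hf : FO m (fun _ => 1) f x)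
    (hg : FO m w g x) : FO m w (fun j z => B (f j z) (g j z)) x := hg.bil B.flip hf

theorem FO.mul {u v : ι → X → ℝ} (hu : FO m (fun _ => 1) u x) (hv : FO m w v x) :
    FO m w (fun j z => u j z * v j z) x := hu.bil' (ContinuousLinearMap.mul ℝ ℝ) hv

theorem FO.smul_const {u : ι → X → ℝ} (hu : FO m w u x) (c : Y) :
    FO m w (fun j z => u j z • c) x := hu.clm ((ContinuousLinearMap.id ℝ ℝ).smulRight c)

theorem FO.fderiv (h : FO (m + 1) w f x) : FO m w (fun j => fderiv ℝ (f j)) x :=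
  ⟨fun j => (h.sm j).fderiv_right (m := ∞) (by simp), fun k hk => by
    refine IsBigO.of_norm_left ?_
    simpa only [norm_iteratedFDeriv_fderiv] using (h.bd (k + 1) (by omega)).norm_left⟩

theorem FO.of_fderiv (hs : ∀ j, ContDiffAt ℝ ∞ (f j) (x j)) (h0 : (fun j => f j (x j)) =O[⊤] w)
    (h : FO m w (fun j => _root_.fderiv ℝ (f j)) x) : FO (m + 1) w f x := by
  refine ⟨hs, fun k hk => IsBigO.of_norm_left ?_⟩
  rcases k with _ | k
  · simpa only [norm_iteratedFDeriv_zero] using h0.norm_left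
  · simpa only [norm_iteratedFDeriv_fderiv] using (h.bd k (by omega)).norm_left

theorem FO.pi {α : Type} [Fintype α] {f : ι → X → α → Y}
    (h : ∀ a, FO m w (fun j z => f j z a) x) : FO m w f x := by
  classical
  have := FO.sum Finset.univ fun a _ => (h a).clm (ContinuousLinearMap.single ℝ (fun _ : α => Y) a)
  simpa [Finset.univ_sum_single] using this

variable {n : ℕ} {x : ι → En n}

theorem FO.pd {f : ι → En n → ℝ} (h : FO (m + 1) w f x) (a : Fin n) :
    FO m w (fun j => pderiv a (f j)) x :=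
  h.fderiv.clm (ContinuousLinearMap.apply ℝ ℝ (EuclideanSpace.single a (1 : ℝ)))

end Crest.Agent.N207.TR

end
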